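import Vale.Agent.Lib.P336.Defs

namespace Vale.Agent.Lib.P336

open Finset
open scoped Classical

noncomputable section

variable {n : ℕ}

/-- flip the bit `j` -/
def flipBit (x : Fin n → Bool) (j : Fin n) : Fin n → Bool := Function.update x j (!x j)

/-- flip all the bits in `S` -/
def flipSet (x : Fin n → Bool) (S : Finset (Fin n)) : Fin n → Bool :=
  fun i => if i ∈ S then !x i else x i

/-- `C` is critical for the variable `j` at `a`: `a` satisfies `C` but `a` with bit `j`
flipped does not. -/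
def Critical (C : Clause n) (a : Fin n → Bool) (j : Fin n) : Prop :=
  clauseHolds C a ∧ ¬ clauseHolds C (flipBit a j)

/-- the variables forced at `a` for the order `σ`, using clauses of `F` -/
def forced (F : CNF n) (σ : Equiv.Perm (Fin n)) (a : Fin n → Bool) : Finset (Fin n) :=
  Finset.univ.filter fun j => ∃ C ∈ F, Critical C a j ∧ ∀ l ∈ C, l.1 ≠ j → σ l.1 < σ j

lemma forced_contra (F : CNF n) (σ : Equiv.Perm (Fin n)) (a a' : Fin n → Bool) (j : Fin n)
    (hj : j ∈ forced F σ a) (ha' : cnfHolds F a') (hagree : ∀ i, σ i < σ j → a i = a' i)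
    (hne : a j ≠ a' j) : False := by
  simp only [forced, mem_filter, mem_univ, true_and] at hj
  obtain ⟨C, hC, ⟨_, hcrit⟩, hord⟩ := hj
  apply hcrit
  obtain ⟨l, hl, hval⟩ := ha' C hC
  refine ⟨l, hl, ?_⟩
  by_cases hlj : l.1 = j
  · rw [hlj] at hval ⊢
    simp only [flipBit, Function.update_self]
    rw [← hval]
    cases h1 : a j <;> cases h2 : a' j <;> simp_all
  · simp only [flipBit, Function.update_of_ne hlj]
    rw [hagree l.1 (hord l hl hlj)]
    exact hval

lemma flipSet_injOn (F : CNF n) (σ : Equiv.Perm (Fin n)) :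
    ∀ (a a' : Fin n → Bool) (S S' : Finset (Fin n)), cnfHolds F a → cnfHolds F a' →
      S ⊆ forced F σ a → S' ⊆ forced F σ a' → flipSet a S = flipSet a' S' → a = a' ∧ S = S' := by
  intro a a' S S' ha ha' hS hS' heq
  have haa : a = a' := by
    by_contra hne
    have hD : (Finset.univ.filter fun i => a i ≠ a' i).Nonempty := by
      by_contra hemp
      rw [Finset.not_nonempty_iff_eq_empty] at hemp
      apply hne
      funext i
      by_contra hi
      have : i ∈ (Finset.univ.filter fun i => a i ≠ a' i) := by simp [hi]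
      rw [hemp] at this
      exact absurd this (Finset.notMem_empty i)
    obtain ⟨j, hjD, hjmin⟩ := Finset.exists_min_image _ (fun i => σ i) hD
    simp only [mem_filter, mem_univ, true_and] at hjD
    have hagree : ∀ i, σ i < σ j → a i = a' i := by
      intro i hi
      by_contra hne'
      have : i ∈ (Finset.univ.filter fun i => a i ≠ a' i) := by simp [hne']
      exact absurd (hjmin i this) (not_le.mpr hi)
    have hj := congrFun heq j
    simp only [flipSet] at hj
    by_cases h1 : j ∈ S <;> by_cases h2 : j ∈ S'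
    · simp only [h1, h2, if_true] at hj
      exact hjD (by simpa using hj)
    · exact forced_contra F σ a a' j (hS h1) ha' hagree hjD
    · exact forced_contra F σ a' a j (hS' h2) ha (fun i hi => (hagree i hi).symm) (Ne.symm hjD)
    · simp only [h1, h2, if_false] at hj
      exact hjD hj
  refine ⟨haa, ?_⟩
  subst haa
  ext i
  have hi := congrFun heq i
  simp only [flipSet] at hi
  by_cases h1 : i ∈ S <;> by_cases h2 : i ∈ S' <;> simp [h1, h2] at hi ⊢

/-- For every order `σ`: `∑_{a ∈ A} 2 ^ |forced a| ≤ 2 ^ n` for any set `A` of solutions. -/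
lemma sum_two_pow_forced_le (F : CNF n) (σ : Equiv.Perm (Fin n)) (A : Finset (Fin n → Bool))
    (hA : ∀ a ∈ A, cnfHolds F a) :
    ∑ a ∈ A, 2 ^ (forced F σ a).card ≤ 2 ^ n := by
  have h1 : ∑ a ∈ A, 2 ^ (forced F σ a).card
      = (A.sigma fun a => (forced F σ a).powerset).card := by
    rw [Finset.card_sigma]
    exact Finset.sum_congr rfl fun a _ => (Finset.card_powerset _).symm
  rw [h1]
  have h2 : (A.sigma fun a => (forced F σ a).powerset).card
      ≤ (Finset.univ : Finset (Fin n → Bool)).card := by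
    apply Finset.card_le_card_of_injOn (fun p => flipSet p.1 p.2)
    · intro p _; exact Finset.mem_univ _
    · intro p hp q hq hpq
      simp only [Finset.coe_sigma, Set.mem_sigma_iff, Finset.mem_coe, Finset.mem_powerset] at hp hq
      obtain ⟨h3, h4⟩ := flipSet_injOn F σ p.1 q.1 p.2 q.2 (hA _ hp.1) (hA _ hq.1) hp.2 hq.2 hpq
      exact Sigma.ext h3 (heq_of_eq h4)
  calc _ ≤ (Finset.univ : Finset (Fin n → Bool)).card := h2
    _ = 2 ^ n := by simp

/-- the orders in which `i` comes after all other elements of `W` -/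
def lastIn (W : Finset (Fin n)) (i : Fin n) : Finset (Equiv.Perm (Fin n)) :=
  Finset.univ.filter fun σ => ∀ i' ∈ W, i' ≠ i → σ i' < σ i

lemma card_lastIn_eq (W : Finset (Fin n)) (i j : Fin n) (hi : i ∈ W) (hj : j ∈ W) :
    (lastIn W i).card = (lastIn W j).card := by
  apply Finset.card_bij' (fun σ _ => σ * Equiv.swap i j) (fun σ _ => σ * Equiv.swap i j)
  · intro σ hσ
    simp only [lastIn, mem_filter, mem_univ, true_and] at hσ ⊢
    intro i' hi' hne
    simp only [Equiv.Perm.mul_apply, Equiv.swap_apply_right]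
    by_cases h1 : i' = i
    · subst h1
      rw [Equiv.swap_apply_left]
      exact hσ j hj (Ne.symm hne)
    · rw [Equiv.swap_apply_of_ne_of_ne h1 hne]
      exact hσ i' hi' h1
  · intro σ hσ
    simp only [lastIn, mem_filter, mem_univ, true_and] at hσ ⊢
    intro i' hi' hne
    simp only [Equiv.Perm.mul_apply, Equiv.swap_apply_left]
    by_cases h1 : i' = j
    · subst h1
      rw [Equiv.swap_apply_right]
      exact hσ i hi (Ne.symm hne)
    · rw [Equiv.swap_apply_of_ne_of_ne hne h1]
      exact hσ i' hi' h1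
  · intro σ _
    rw [mul_assoc, Equiv.swap_mul_self, mul_one]
  · intro σ _
    rw [mul_assoc, Equiv.swap_mul_self, mul_one]

lemma sum_card_lastIn (W : Finset (Fin n)) (hW : W.Nonempty) :
    ∑ i ∈ W, (lastIn W i).card = (n).factorial := by
  have h1 : ∀ i ∈ W, (lastIn W i).card
      = ∑ σ : Equiv.Perm (Fin n), if (∀ i' ∈ W, i' ≠ i → σ i' < σ i) then 1 else 0 := by
    intro i _
    unfold lastIn
    rw [Finset.card_filter]
  rw [Finset.sum_congr rfl h1, Finset.sum_comm]
  have h2 : ∀ σ : Equiv.Perm (Fin n),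
      ∑ i ∈ W, (if (∀ i' ∈ W, i' ≠ i → σ i' < σ i) then 1 else 0) = 1 := by
    intro σ
    obtain ⟨a, haW, hamax⟩ := Finset.exists_max_image W (fun i => σ i) hW
    rw [Finset.sum_eq_single a]
    · rw [if_pos]
      intro i' hi' hne
      exact lt_of_le_of_ne (hamax i' hi') (fun h => hne (σ.injective h))
    · intro b hb hba
      rw [if_neg]
      intro hall
      have := hall a haW (Ne.symm hba)
      exact absurd (hamax b hb) (not_le.mpr this)
    · intro h; exact absurd haW h
  rw [Finset.sum_congr rfl fun σ _ => h2 σ]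
  simp [Fintype.card_perm]

/-- the number of orders in which `j` is the last element of `W`, times `|W|`, is `n!` -/
lemma card_lastIn_mul (W : Finset (Fin n)) (j : Fin n) (hj : j ∈ W) :
    (lastIn W j).card * W.card = (n).factorial := by
  rw [← sum_card_lastIn W ⟨j, hj⟩]
  rw [Finset.sum_congr rfl fun i hi => card_lastIn_eq W i j hi hj]
  simp [mul_comm]


lemma critical_mem_vars (C : Clause n) (a : Fin n → Bool) (j : Fin n) (h : Critical C a j) :
    j ∈ C.image Prod.fst := by
  obtain ⟨⟨l, hl, hval⟩, hnot⟩ := h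
  rw [Finset.mem_image]
  refine ⟨l, hl, ?_⟩
  by_contra hne
  apply hnot
  refine ⟨l, hl, ?_⟩
  simp only [flipBit, Function.update_of_ne hne]
  exact hval

/-- each variable with a critical clause of width at most `k` is forced in at least a
`1 / k` fraction of the orders -/
lemma card_forced_orders (F : CNF n) (k : ℕ) (a : Fin n → Bool) (j : Fin n)
    (hj : ∃ C ∈ F, Critical C a j ∧ C.card ≤ k) :
    (n).factorial ≤ (Finset.univ.filter fun σ : Equiv.Perm (Fin n) => j ∈ forced F σ a).card * k := by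
  obtain ⟨C, hC, hcrit, hcard⟩ := hj
  set W := C.image Prod.fst with hW
  have hjW : j ∈ W := critical_mem_vars C a j hcrit
  have hWk : W.card ≤ k := le_trans Finset.card_image_le hcard
  have hsub : lastIn W j ⊆ Finset.univ.filter fun σ : Equiv.Perm (Fin n) => j ∈ forced F σ a := by
    intro σ hσ
    simp only [lastIn, mem_filter, mem_univ, true_and] at hσ
    simp only [forced, mem_filter, mem_univ, true_and]
    refine ⟨C, hC, hcrit, fun l hl hne => hσ l.1 ?_ hne⟩
    exact Finset.mem_image_of_mem _ hl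
  calc (n).factorial = (lastIn W j).card * W.card := (card_lastIn_mul W j hjW).symm
    _ ≤ (Finset.univ.filter fun σ : Equiv.Perm (Fin n) => j ∈ forced F σ a).card * k :=
        Nat.mul_le_mul (Finset.card_le_card hsub) hWk

lemma sum_card_forced (F : CNF n) (k : ℕ) (a : Fin n → Bool)
    (ha : ∀ j, ∃ C ∈ F, Critical C a j ∧ C.card ≤ k) :
    n * (n).factorial ≤ (∑ σ : Equiv.Perm (Fin n), (forced F σ a).card) * k := by
  have h1 : ∑ σ : Equiv.Perm (Fin n), (forced F σ a).card
      = ∑ j : Fin n, (Finset.univ.filter fun σ : Equiv.Perm (Fin n) => j ∈ forced F σ a).card := by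
    have e1 : ∀ σ : Equiv.Perm (Fin n), (forced F σ a).card
        = ∑ j : Fin n, if j ∈ forced F σ a then 1 else 0 := by
      intro σ
      rw [← Finset.card_filter]
      congr 1
      ext j
      simp
    have e2 : ∀ j : Fin n, (Finset.univ.filter fun σ : Equiv.Perm (Fin n) => j ∈ forced F σ a).card
        = ∑ σ : Equiv.Perm (Fin n), if j ∈ forced F σ a then 1 else 0 := by
      intro j
      rw [Finset.card_filter]
    rw [Finset.sum_congr rfl fun σ _ => e1 σ, Finset.sum_comm, Finset.sum_congr rfl fun j _ => e2 j]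
  rw [h1, Finset.sum_mul]
  calc n * (n).factorial = ∑ _j : Fin n, (n).factorial := by simp
    _ ≤ _ := Finset.sum_le_sum fun j _ => card_forced_orders F k a j (ha j)

/-- Jensen step -/
lemma jensen_two_pow (F : CNF n) (k : ℕ) (hk : 1 ≤ k) (a : Fin n → Bool)
    (ha : ∀ j, ∃ C ∈ F, Critical C a j ∧ C.card ≤ k) :
    ((n).factorial : ℝ) * (2:ℝ) ^ ((n:ℝ) / k)
      ≤ ∑ σ : Equiv.Perm (Fin n), (2:ℝ) ^ (forced F σ a).card := by
  set N : ℝ := ((n).factorial : ℝ) with hN
  have hNpos : 0 < N := by positivity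
  have hkpos : (0:ℝ) < k := by exact_mod_cast hk
  have hsum := sum_card_forced F k a ha
  have hsumR : (n:ℝ) * N ≤ (∑ σ : Equiv.Perm (Fin n), ((forced F σ a).card : ℝ)) * k := by
    have : ((n * (n).factorial : ℕ) : ℝ)
        ≤ (((∑ σ : Equiv.Perm (Fin n), (forced F σ a).card) * k : ℕ) : ℝ) := by
      exact_mod_cast hsum
    push_cast at this
    exact this
  have hconv := convexOn_exp.map_sum_le (t := (Finset.univ : Finset (Equiv.Perm (Fin n))))
    (w := fun _ => 1 / N) (p := fun σ => ((forced F σ a).card : ℝ) * Real.log 2)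
    (fun _ _ => by positivity)
    (by
      rw [Finset.sum_const, Finset.card_univ, Fintype.card_perm, Fintype.card_fin, nsmul_eq_mul,
        ← hN]
      field_simp)
    (fun _ _ => Set.mem_univ _)
  simp only [smul_eq_mul] at hconv
  have hlog : 0 < Real.log 2 := Real.log_pos (by norm_num)
  have e1 : ∀ σ : Equiv.Perm (Fin n), Real.exp (((forced F σ a).card : ℝ) * Real.log 2)
      = (2:ℝ) ^ (forced F σ a).card := by
    intro σ
    rw [mul_comm, Real.exp_mul, Real.exp_log (by norm_num), Real.rpow_natCast]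
  simp only [e1] at hconv
  have e2 : (2:ℝ) ^ ((n:ℝ) / k) = Real.exp ((n:ℝ) / k * Real.log 2) := by
    rw [mul_comm, Real.exp_mul, Real.exp_log (by norm_num)]
  have h3 : (n:ℝ) / k * Real.log 2
      ≤ ∑ σ : Equiv.Perm (Fin n), 1 / N * (((forced F σ a).card : ℝ) * Real.log 2) := by
    have : ∑ σ : Equiv.Perm (Fin n), 1 / N * (((forced F σ a).card : ℝ) * Real.log 2)
        = (∑ σ : Equiv.Perm (Fin n), ((forced F σ a).card : ℝ)) / N * Real.log 2 := by
      rw [Finset.sum_div, Finset.sum_mul]
      exact Finset.sum_congr rfl fun σ _ => by ring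
    rw [this]
    apply mul_le_mul_of_nonneg_right _ hlog.le
    rw [div_le_div_iff₀ hkpos hNpos]
    exact hsumR
  have h4 : (2:ℝ) ^ ((n:ℝ) / k) ≤ ∑ σ : Equiv.Perm (Fin n), 1 / N * (2:ℝ) ^ (forced F σ a).card := by
    rw [e2]
    exact le_trans (Real.exp_le_exp.mpr h3) hconv
  have h5 : ∑ σ : Equiv.Perm (Fin n), 1 / N * (2:ℝ) ^ (forced F σ a).card
      = (∑ σ : Equiv.Perm (Fin n), (2:ℝ) ^ (forced F σ a).card) / N := by
    rw [Finset.sum_div]
    exact Finset.sum_congr rfl fun σ _ => by ring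
  rw [h5, le_div_iff₀ hNpos] at h4
  linarith

/-- **Satisfiability coding lemma** (Paturi-Pudlak-Zane): a set `A` of solutions of `F` such
that every variable has, at every point of `A`, a critical clause with at most `k` literals,
has at most `2 ^ (n - n / k)` elements. -/
theorem coding_lemma (F : CNF n) (k : ℕ) (hk : 1 ≤ k) (A : Finset (Fin n → Bool))
    (hA : ∀ a ∈ A, cnfHolds F a ∧ ∀ j, ∃ C ∈ F, Critical C a j ∧ C.card ≤ k) :
    (A.card : ℝ) * (2:ℝ) ^ ((n:ℝ) / k) ≤ (2:ℝ) ^ n := by
  set N : ℝ := ((n).factorial : ℝ) with hN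
  have hNpos : 0 < N := by positivity
  have h1 : (A.card : ℝ) * (N * (2:ℝ) ^ ((n:ℝ) / k))
      ≤ ∑ a ∈ A, ∑ σ : Equiv.Perm (Fin n), (2:ℝ) ^ (forced F σ a).card := by
    rw [← nsmul_eq_mul, ← Finset.sum_const]
    exact Finset.sum_le_sum fun a ha => jensen_two_pow F k hk a (hA a ha).2
  have h2 : ∑ a ∈ A, ∑ σ : Equiv.Perm (Fin n), (2:ℝ) ^ (forced F σ a).card ≤ N * (2:ℝ) ^ n := by
    rw [Finset.sum_comm]
    have h3 : ∀ σ : Equiv.Perm (Fin n), ∑ a ∈ A, (2:ℝ) ^ (forced F σ a).card ≤ (2:ℝ) ^ n := by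
      intro σ
      have := sum_two_pow_forced_le F σ A (fun a ha => (hA a ha).1)
      have h4 : ((∑ a ∈ A, 2 ^ (forced F σ a).card : ℕ) : ℝ) ≤ ((2 ^ n : ℕ) : ℝ) := by
        exact_mod_cast this
      push_cast at h4
      exact h4
    calc ∑ σ : Equiv.Perm (Fin n), ∑ a ∈ A, (2:ℝ) ^ (forced F σ a).card
        ≤ ∑ _σ : Equiv.Perm (Fin n), (2:ℝ) ^ n := Finset.sum_le_sum fun σ _ => h3 σ
      _ = N * (2:ℝ) ^ n := by
        rw [Finset.sum_const, Finset.card_univ, Fintype.card_perm, Fintype.card_fin, nsmul_eq_mul]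
  have h5 : N * ((A.card : ℝ) * (2:ℝ) ^ ((n:ℝ) / k)) ≤ N * (2:ℝ) ^ n := by
    calc N * ((A.card : ℝ) * (2:ℝ) ^ ((n:ℝ) / k)) = (A.card : ℝ) * (N * (2:ℝ) ^ ((n:ℝ) / k)) := by ring
      _ ≤ _ := le_trans h1 h2
  exact le_of_mul_le_mul_left h5 hNpos

end

end Vale.Agent.Lib.P336
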