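import Mathlib

/-!
# Depth-three OR-AND-OR circuits

Definitions shared by the hand-ins for problem P336.
-/

namespace Vale.Agent.Lib.P336

/-- A literal on the variables `x 0, ..., x (n - 1)`: the pair `(i, b)` stands for `x i` when
`b = true` and for the negation of `x i` when `b = false`. -/
abbrev Lit (n : ℕ) := Fin n × Bool

/-- A bottom OR gate: the finite set of literals it reads. -/
abbrev Clause (n : ℕ) := Finset (Lit n)

/-- A middle AND gate: the finite set of bottom OR gates it reads (a CNF). -/
abbrev CNF (n : ℕ) := Finset (Clause n)

/-- An OR-AND-OR circuit: the finite set of middle AND gates read by the top OR gate. -/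
abbrev Circuit (n : ℕ) := Finset (CNF n)

variable {n : ℕ}

/-- The bottom OR gate `C` outputs true on the input `x`. -/
def clauseHolds (C : Clause n) (x : Fin n → Bool) : Prop := ∃ l ∈ C, x l.1 = l.2

/-- The middle AND gate `F` outputs true on the input `x`. -/
def cnfHolds (F : CNF n) (x : Fin n → Bool) : Prop := ∀ C ∈ F, clauseHolds C x

/-- The circuit `Φ` (the OR of its middle gates) outputs true on the input `x`. -/
def accepts (Φ : Circuit n) (x : Fin n → Bool) : Prop := ∃ F ∈ Φ, cnfHolds F x

/-- The set of (distinct) bottom gates of the circuit `Φ`. -/
def bottomGates (Φ : Circuit n) : Finset (Clause n) := Φ.biUnion id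

/-- `x` has an odd number of true coordinates. -/
def oddParity (x : Fin n → Bool) : Prop :=
  Odd (Finset.univ.filter fun i => x i = true).card

/-- The circuit `Φ` computes the parity function on `n` variables. -/
def ComputesParity (Φ : Circuit n) : Prop := ∀ x : Fin n → Bool, accepts Φ x ↔ oddParity x

end Vale.Agent.Lib.P336
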