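import Vale.Agent.Lib.P336.Coding

namespace Vale.Agent.Lib.P336

open Finset
open scoped Classical

noncomputable section

variable {n : ℕ}

lemma flipBit_flipBit (x : Fin n → Bool) (j : Fin n) : flipBit (flipBit x j) j = x := by
  funext i
  by_cases h : i = j
  · subst h; simp [flipBit]
  · simp [flipBit, Function.update_of_ne h]

lemma flipBit_of_ne (x : Fin n → Bool) {i j : Fin n} (h : i ≠ j) : flipBit x j i = x i := by
  simp [flipBit, Function.update_of_ne h]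

lemma oddParity_flipBit (x : Fin n → Bool) (j : Fin n) :
    oddParity (flipBit x j) ↔ ¬ oddParity x := by
  unfold oddParity
  cases hx : x j
  · -- bit `j` becomes true
    have h1 : (Finset.univ.filter fun i => flipBit x j i = true)
        = insert j (Finset.univ.filter fun i => x i = true) := by
      ext i
      simp only [Finset.mem_filter, Finset.mem_univ, true_and, Finset.mem_insert]
      by_cases h : i = j
      · subst h; simp [flipBit, hx]
      · rw [flipBit_of_ne x h]; simp [h]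
    have h2 : j ∉ (Finset.univ.filter fun i => x i = true) := by simp [hx]
    rw [h1, Finset.card_insert_of_notMem h2, Nat.odd_add_one]
  · -- bit `j` becomes false
    have h1 : (Finset.univ.filter fun i => flipBit x j i = true)
        = (Finset.univ.filter fun i => x i = true).erase j := by
      ext i
      simp only [Finset.mem_filter, Finset.mem_univ, true_and, Finset.mem_erase]
      by_cases h : i = j
      · subst h; simp [flipBit, hx]
      · rw [flipBit_of_ne x h]; simp [h]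
    have h2 : j ∈ (Finset.univ.filter fun i => x i = true) := by simp [hx]
    have h3 := Finset.card_erase_add_one h2
    rw [h1]
    rw [← h3, Nat.odd_add_one, not_not]

/-- the number of inputs of odd parity -/
lemma card_odd (hn : 1 ≤ n) :
    2 * (Finset.univ.filter fun x : Fin n → Bool => oddParity x).card = 2 ^ n := by
  have j0 : Fin n := ⟨0, hn⟩
  have h1 : (Finset.univ.filter fun x : Fin n → Bool => oddParity x).card
      = (Finset.univ.filter fun x : Fin n → Bool => ¬ oddParity x).card := by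
    apply Finset.card_bij' (fun x _ => flipBit x j0) (fun x _ => flipBit x j0)
    · intro x hx
      simp only [mem_filter, mem_univ, true_and] at hx ⊢
      rw [oddParity_flipBit]; exact not_not.mpr hx
    · intro x hx
      simp only [mem_filter, mem_univ, true_and] at hx ⊢
      rw [oddParity_flipBit]; exact hx
    · intro x _; exact flipBit_flipBit x j0
    · intro x _; exact flipBit_flipBit x j0
  have h2 := Finset.card_filter_add_card_filter_not (s := (Finset.univ : Finset (Fin n → Bool)))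
    (fun x => oddParity x)
  rw [← h1] at h2
  have h3 : (Finset.univ : Finset (Fin n → Bool)).card = 2 ^ n := by simp
  omega

/-- at an accepted input of a circuit computing parity, every variable has a critical clause
in any middle gate that accepts the input -/
lemma exists_critical (Φ : Circuit n) (hΦ : ComputesParity Φ) (F : CNF n) (hF : F ∈ Φ)
    (a : Fin n → Bool) (ha : cnfHolds F a) (j : Fin n) : ∃ C ∈ F, Critical C a j := by
  have hodd : oddParity a := (hΦ a).mp ⟨F, hF, ha⟩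
  have hnot : ¬ cnfHolds F (flipBit a j) := by
    intro h
    have := (hΦ (flipBit a j)).mp ⟨F, hF, h⟩
    rw [oddParity_flipBit] at this
    exact this hodd
  unfold cnfHolds at hnot
  push Not at hnot
  obtain ⟨C, hC, hCn⟩ := hnot
  exact ⟨C, hC, ha C hC, hCn⟩

/-- **Parity needs `2 ^ (n / k - 1)` middle gates when the bottom fan-in is at most `k`.** -/
theorem parity_bottom_fanin (n k : ℕ) (hn : 1 ≤ n) (hk : 1 ≤ k) (Φ : Circuit n)
    (hΦ : ComputesParity Φ) (hfan : ∀ F ∈ Φ, ∀ C ∈ F, C.card ≤ k) :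
    (2:ℝ) ^ ((n:ℝ) / k - 1) ≤ (Φ.card : ℝ) := by
  set Odd := Finset.univ.filter fun x : Fin n → Bool => oddParity x with hOdd
  set Sat : CNF n → Finset (Fin n → Bool) := fun F => Finset.univ.filter fun x => cnfHolds F x
    with hSat
  have hcover : Odd ⊆ Φ.biUnion Sat := by
    intro x hx
    simp only [hOdd, mem_filter, mem_univ, true_and] at hx
    obtain ⟨F, hF, hFx⟩ := (hΦ x).mpr hx
    rw [Finset.mem_biUnion]
    exact ⟨F, hF, by simp [hSat, hFx]⟩
  have hSatF : ∀ F ∈ Φ, ((Sat F).card : ℝ) * (2:ℝ) ^ ((n:ℝ) / k) ≤ (2:ℝ) ^ n := by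
    intro F hF
    apply coding_lemma F k hk (Sat F)
    intro a ha
    simp only [hSat, mem_filter, mem_univ, true_and] at ha
    refine ⟨ha, fun j => ?_⟩
    obtain ⟨C, hC, hcrit⟩ := exists_critical Φ hΦ F hF a ha j
    exact ⟨C, hC, hcrit, hfan F hF C hC⟩
  have hpos : (0:ℝ) < (2:ℝ) ^ ((n:ℝ) / k) := by positivity
  have h1 : (Odd.card : ℝ) ≤ ∑ F ∈ Φ, ((Sat F).card : ℝ) := by
    have := le_trans (Finset.card_le_card hcover) Finset.card_biUnion_le
    exact_mod_cast this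
  have h2 : (Odd.card : ℝ) * (2:ℝ) ^ ((n:ℝ) / k) ≤ (Φ.card : ℝ) * (2:ℝ) ^ n := by
    calc (Odd.card : ℝ) * (2:ℝ) ^ ((n:ℝ) / k)
        ≤ (∑ F ∈ Φ, ((Sat F).card : ℝ)) * (2:ℝ) ^ ((n:ℝ) / k) :=
          mul_le_mul_of_nonneg_right h1 hpos.le
      _ = ∑ F ∈ Φ, ((Sat F).card : ℝ) * (2:ℝ) ^ ((n:ℝ) / k) := Finset.sum_mul _ _ _
      _ ≤ ∑ _F ∈ Φ, (2:ℝ) ^ n := Finset.sum_le_sum hSatF
      _ = (Φ.card : ℝ) * (2:ℝ) ^ n := by rw [Finset.sum_const, nsmul_eq_mul]
  have h3 : (2:ℝ) * (Odd.card : ℝ) = (2:ℝ) ^ n := by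
    have := card_odd hn
    exact_mod_cast this
  have h4 : (2:ℝ) ^ ((n:ℝ) / k - 1) = (2:ℝ) ^ ((n:ℝ) / k) / 2 := by
    rw [Real.rpow_sub (by norm_num), Real.rpow_one]
  rw [h4, div_le_iff₀ (by norm_num)]
  have h5 : (0:ℝ) < (2:ℝ) ^ n := by positivity
  have h6 : (2:ℝ) ^ n * (2:ℝ) ^ ((n:ℝ) / k) ≤ (2:ℝ) ^ n * ((Φ.card : ℝ) * 2) := by
    calc (2:ℝ) ^ n * (2:ℝ) ^ ((n:ℝ) / k) = 2 * ((Odd.card : ℝ) * (2:ℝ) ^ ((n:ℝ) / k)) := by
          rw [← h3]; ring
      _ ≤ 2 * ((Φ.card : ℝ) * (2:ℝ) ^ n) := by linarith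
      _ = (2:ℝ) ^ n * ((Φ.card : ℝ) * 2) := by ring
  exact le_of_mul_le_mul_left h6 h5


/-- **Restricted form of the question.** If the bottom fan-in is at most `n ^ (1/2 - ε)`,
parity needs at least `2 ^ (n ^ (1/2 + ε) - 1)` middle gates. -/
theorem parity_bottom_fanin_eps (ε : ℝ) (n k : ℕ) (hn : 1 ≤ n) (hk : 1 ≤ k)
    (hkn : (k:ℝ) ≤ (n:ℝ) ^ ((1:ℝ) / 2 - ε)) (Φ : Circuit n)
    (hΦ : ComputesParity Φ) (hfan : ∀ F ∈ Φ, ∀ C ∈ F, C.card ≤ k) :
    (2:ℝ) ^ ((n:ℝ) ^ ((1:ℝ) / 2 + ε) - 1) ≤ (Φ.card : ℝ) := by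
  refine le_trans ?_ (parity_bottom_fanin n k hn hk Φ hΦ hfan)
  apply Real.rpow_le_rpow_of_exponent_le (by norm_num)
  have hn0 : (0:ℝ) < n := by exact_mod_cast hn
  have hk0 : (0:ℝ) < k := by exact_mod_cast hk
  have h1 : (n:ℝ) = (n:ℝ) ^ ((1:ℝ) / 2 - ε) * (n:ℝ) ^ ((1:ℝ) / 2 + ε) := by
    rw [← Real.rpow_add hn0]
    have : (1:ℝ) / 2 - ε + (1 / 2 + ε) = 1 := by ring
    rw [this, Real.rpow_one]
  have h2 : (n:ℝ) ^ ((1:ℝ) / 2 + ε) ≤ (n:ℝ) / k := by
    rw [le_div_iff₀ hk0]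
    have hpos : (0:ℝ) ≤ (n:ℝ) ^ ((1:ℝ) / 2 + ε) := by positivity
    calc (n:ℝ) ^ ((1:ℝ) / 2 + ε) * k ≤ (n:ℝ) ^ ((1:ℝ) / 2 + ε) * (n:ℝ) ^ ((1:ℝ) / 2 - ε) :=
          mul_le_mul_of_nonneg_left hkn hpos
      _ = (n:ℝ) := by rw [mul_comm]; exact h1.symm
  linarith

/-- the inputs at which the clause `C` is critical for some variable -/
def badSet (C : Clause n) : Finset (Fin n → Bool) :=
  Finset.univ.filter fun a => ∃ j, Critical C a j

lemma card_agree_le (V : Finset (Fin n)) (b₀ : Fin n → Bool) :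
    (Finset.univ.filter fun b : Fin n → Bool => ∀ i ∈ V, b i = b₀ i).card ≤ 2 ^ (n - V.card) := by
  have h1 : (Finset.univ.filter fun b : Fin n → Bool => ∀ i ∈ V, b i = b₀ i).card
      ≤ (Finset.univ : Finset ((Vᶜ : Finset (Fin n)) → Bool)).card := by
    apply Finset.card_le_card_of_injOn (fun b => fun i : (Vᶜ : Finset (Fin n)) => b i.1)
    · intro b _; exact Finset.mem_univ _
    · intro b hb b' hb' heq
      simp only [Finset.coe_filter, Finset.mem_univ, true_and, Set.mem_ofPred_eq] at hb hb'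
      funext i
      by_cases hi : i ∈ V
      · rw [hb i hi, hb' i hi]
      · have := congrFun heq ⟨i, Finset.mem_compl.mpr hi⟩
        exact this
  have h2 : (Finset.univ : Finset ((Vᶜ : Finset (Fin n)) → Bool)).card = 2 ^ (n - V.card) := by
    rw [Finset.card_univ, Fintype.card_fun, Fintype.card_bool, Fintype.card_coe,
      Finset.card_compl, Fintype.card_fin]
  rw [h2] at h1
  exact h1

lemma card_badSet (C : Clause n) : (badSet C).card * 2 ^ C.card ≤ C.card * 2 ^ n := by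
  by_cases hemp : badSet C = ∅
  · rw [hemp]; simp
  obtain ⟨a₀, ha₀⟩ := Finset.nonempty_iff_ne_empty.mpr hemp
  simp only [badSet, mem_filter, mem_univ, true_and] at ha₀
  obtain ⟨j₀, -, hnot₀⟩ := ha₀
  set b₀ := flipBit a₀ j₀ with hb₀
  have hfal₀ : ∀ l ∈ C, b₀ l.1 ≠ l.2 := fun l hl h => hnot₀ ⟨l, hl, h⟩
  set V := C.image Prod.fst with hV
  have hinj : Set.InjOn (Prod.fst : Lit n → Fin n) (C : Set (Lit n)) := by
    intro l hl l' hl' heq
    have h1 := hfal₀ l hl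
    have h2 := hfal₀ l' hl'
    rw [heq] at h1
    refine Prod.ext heq ?_
    cases h3 : l.2 <;> cases h4 : l'.2 <;> cases h5 : b₀ l'.1 <;> simp_all
  have hVcard : V.card = C.card := Finset.card_image_of_injOn hinj
  have hVn : V.card ≤ n := by
    have := Finset.card_le_univ V
    simpa using this
  set Fals := Finset.univ.filter fun b : Fin n → Bool => ∀ i ∈ V, b i = b₀ i with hFals
  have hFalscard : Fals.card ≤ 2 ^ (n - V.card) := card_agree_le V b₀
  have hsub : badSet C ⊆ (Fals ×ˢ V).image fun p => flipBit p.1 p.2 := by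
    intro a ha
    simp only [badSet, mem_filter, mem_univ, true_and] at ha
    obtain ⟨j, hcrit⟩ := ha
    rw [Finset.mem_image]
    refine ⟨(flipBit a j, j), ?_, flipBit_flipBit a j⟩
    rw [Finset.mem_product]
    refine ⟨?_, critical_mem_vars C a j hcrit⟩
    simp only [hFals, mem_filter, mem_univ, true_and]
    intro i hi
    rw [hV, Finset.mem_image] at hi
    obtain ⟨l, hl, rfl⟩ := hi
    have h1 : flipBit a j l.1 ≠ l.2 := fun h => hcrit.2 ⟨l, hl, h⟩
    have h2 := hfal₀ l hl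
    cases h3 : l.2 <;> cases h4 : b₀ l.1 <;> cases h5 : flipBit a j l.1 <;> simp_all
  have hcard : (badSet C).card ≤ 2 ^ (n - V.card) * V.card := by
    calc (badSet C).card ≤ ((Fals ×ˢ V).image fun p => flipBit p.1 p.2).card :=
          Finset.card_le_card hsub
      _ ≤ (Fals ×ˢ V).card := Finset.card_image_le
      _ = Fals.card * V.card := Finset.card_product _ _
      _ ≤ 2 ^ (n - V.card) * V.card := Nat.mul_le_mul_right _ hFalscard
  rw [hVcard] at hcard hVn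
  calc (badSet C).card * 2 ^ C.card ≤ 2 ^ (n - C.card) * C.card * 2 ^ C.card :=
        Nat.mul_le_mul_right _ hcard
    _ = C.card * (2 ^ (n - C.card) * 2 ^ C.card) := by ring
    _ = C.card * 2 ^ n := by rw [← pow_add, Nat.sub_add_cancel hVn]

lemma div_two_pow_antitone (k w : ℕ) (hk : 1 ≤ k) (hw : k ≤ w) :
    (w:ℝ) / 2 ^ w ≤ (k:ℝ) / 2 ^ k := by
  induction w, hw using Nat.le_induction with
  | base => exact le_rfl
  | succ w hkw ih =>
    refine le_trans ?_ ih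
    rw [div_le_div_iff₀ (by positivity) (by positivity)]
    have hw1 : (1:ℝ) ≤ w := by exact_mod_cast le_trans hk hkw
    have h2 : (0:ℝ) < 2 ^ w := by positivity
    push_cast
    rw [pow_succ]
    nlinarith


/-- **Trade-off for parity.** For every `k ≥ 1`, a circuit computing parity on `n ≥ 1`
variables with `T` middle gates and `W` bottom gates of fan-in larger than `k` satisfies
`1 ≤ T * 2 ^ (1 - n / k) + W * (k + 1) / 2 ^ k`. -/
theorem parity_tradeoff (n k : ℕ) (hn : 1 ≤ n) (hk : 1 ≤ k) (Φ : Circuit n)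
    (hΦ : ComputesParity Φ) :
    1 ≤ (Φ.card : ℝ) * (2:ℝ) ^ (1 - (n:ℝ) / k)
      + (((bottomGates Φ).filter fun C => k < C.card).card : ℝ) * ((k:ℝ) + 1) / 2 ^ k := by
  set Odd := Finset.univ.filter fun x : Fin n → Bool => oddParity x with hOdd
  set Wide := (bottomGates Φ).filter fun C => k < C.card with hWide
  set A : CNF n → Finset (Fin n → Bool) := fun F => Finset.univ.filter fun a =>
    cnfHolds F a ∧ ∀ j, ∃ C ∈ F, Critical C a j ∧ C.card ≤ k with hA
  have hcover : Odd ⊆ Φ.biUnion A ∪ Wide.biUnion badSet := by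
    intro x hx
    simp only [hOdd, mem_filter, mem_univ, true_and] at hx
    obtain ⟨F, hF, hFx⟩ := (hΦ x).mpr hx
    by_cases hall : ∀ j, ∃ C ∈ F, Critical C x j ∧ C.card ≤ k
    · apply Finset.mem_union_left
      rw [Finset.mem_biUnion]
      exact ⟨F, hF, by simp only [hA, mem_filter, mem_univ, true_and]; exact ⟨hFx, hall⟩⟩
    · apply Finset.mem_union_right
      push Not at hall
      obtain ⟨j, hj⟩ := hall
      obtain ⟨C, hC, hcrit⟩ := exists_critical Φ hΦ F hF x hFx j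
      rw [Finset.mem_biUnion]
      refine ⟨C, ?_, ?_⟩
      · simp only [hWide, mem_filter, bottomGates, Finset.mem_biUnion, id]
        exact ⟨⟨F, hF, hC⟩, hj C hC hcrit⟩
      · simp only [badSet, mem_filter, mem_univ, true_and]
        exact ⟨j, hcrit⟩
  have hpow : (0:ℝ) < (2:ℝ) ^ ((n:ℝ) / k) := by positivity
  have h2n : (0:ℝ) < (2:ℝ) ^ n := by positivity
  -- narrow part
  have hAF : ∀ F ∈ Φ, ((A F).card : ℝ) ≤ (2:ℝ) ^ n / (2:ℝ) ^ ((n:ℝ) / k) := by
    intro F _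
    rw [le_div_iff₀ hpow]
    apply coding_lemma F k hk (A F)
    intro a ha
    simpa only [hA, mem_filter, mem_univ, true_and] using ha
  -- wide part
  have hBad : ∀ C ∈ Wide, ((badSet C).card : ℝ) ≤ (2:ℝ) ^ n * (((k:ℝ) + 1) / 2 ^ (k + 1)) := by
    intro C hC
    simp only [hWide, mem_filter] at hC
    have h1 := card_badSet C
    have h2 : ((badSet C).card : ℝ) * (2:ℝ) ^ C.card ≤ (C.card : ℝ) * (2:ℝ) ^ n := by
      exact_mod_cast h1
    have h3 : ((badSet C).card : ℝ) ≤ (2:ℝ) ^ n * ((C.card : ℝ) / 2 ^ C.card) := by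
      rw [← mul_div_assoc, le_div_iff₀ (by positivity)]
      linarith
    have h4 := div_two_pow_antitone (k + 1) C.card (by omega) hC.2
    push_cast at h4
    calc ((badSet C).card : ℝ) ≤ (2:ℝ) ^ n * ((C.card : ℝ) / 2 ^ C.card) := h3
      _ ≤ (2:ℝ) ^ n * (((k:ℝ) + 1) / 2 ^ (k + 1)) := mul_le_mul_of_nonneg_left h4 h2n.le
  have hcardOdd : (Odd.card : ℝ) ≤ ∑ F ∈ Φ, ((A F).card : ℝ) + ∑ C ∈ Wide, ((badSet C).card : ℝ) := by
    have h1 : Odd.card ≤ (Φ.biUnion A).card + (Wide.biUnion badSet).card :=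
      le_trans (Finset.card_le_card hcover) (Finset.card_union_le _ _)
    have h2 : Odd.card ≤ ∑ F ∈ Φ, (A F).card + ∑ C ∈ Wide, (badSet C).card :=
      le_trans h1 (Nat.add_le_add Finset.card_biUnion_le Finset.card_biUnion_le)
    exact_mod_cast h2
  have hsum1 : ∑ F ∈ Φ, ((A F).card : ℝ) ≤ (Φ.card : ℝ) * ((2:ℝ) ^ n / (2:ℝ) ^ ((n:ℝ) / k)) := by
    calc ∑ F ∈ Φ, ((A F).card : ℝ) ≤ ∑ _F ∈ Φ, (2:ℝ) ^ n / (2:ℝ) ^ ((n:ℝ) / k) :=
          Finset.sum_le_sum hAF
      _ = _ := by rw [Finset.sum_const, nsmul_eq_mul]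
  have hsum2 : ∑ C ∈ Wide, ((badSet C).card : ℝ)
      ≤ (Wide.card : ℝ) * ((2:ℝ) ^ n * (((k:ℝ) + 1) / 2 ^ (k + 1))) := by
    calc ∑ C ∈ Wide, ((badSet C).card : ℝ) ≤ ∑ _C ∈ Wide, (2:ℝ) ^ n * (((k:ℝ) + 1) / 2 ^ (k + 1)) :=
          Finset.sum_le_sum hBad
      _ = _ := by rw [Finset.sum_const, nsmul_eq_mul]
  have h3 : (2:ℝ) * (Odd.card : ℝ) = (2:ℝ) ^ n := by
    have := card_odd hn
    exact_mod_cast this
  have e1 : (2:ℝ) ^ (1 - (n:ℝ) / k) = 2 / (2:ℝ) ^ ((n:ℝ) / k) := by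
    rw [Real.rpow_sub (by norm_num), Real.rpow_one]
  rw [e1]
  have key : (2:ℝ) ^ n * 1 ≤ (2:ℝ) ^ n * ((Φ.card : ℝ) * (2 / (2:ℝ) ^ ((n:ℝ) / k))
      + (Wide.card : ℝ) * ((k:ℝ) + 1) / 2 ^ k) := by
    have e2 : (2:ℝ) ^ n * ((Φ.card : ℝ) * (2 / (2:ℝ) ^ ((n:ℝ) / k))
        + (Wide.card : ℝ) * ((k:ℝ) + 1) / 2 ^ k)
        = 2 * ((Φ.card : ℝ) * ((2:ℝ) ^ n / (2:ℝ) ^ ((n:ℝ) / k))
          + (Wide.card : ℝ) * ((2:ℝ) ^ n * (((k:ℝ) + 1) / 2 ^ (k + 1)))) := by
      rw [pow_succ]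
      field_simp
    rw [e2, mul_one]
    linarith
  exact le_of_mul_le_mul_left key h2n


/-- **Explicit size bound for parity.** A circuit computing parity on `n ≥ 1` variables has
at least `2 ^ √n / (√n + 4)` gates (middle plus bottom). -/
theorem parity_size (n : ℕ) (hn : 1 ≤ n) (Φ : Circuit n) (hΦ : ComputesParity Φ) :
    (2:ℝ) ^ Real.sqrt n / (Real.sqrt n + 4) ≤ (Φ.card : ℝ) + ((bottomGates Φ).card : ℝ) := by
  set r : ℝ := Real.sqrt n with hr
  have hn1 : (1:ℝ) ≤ n := by exact_mod_cast hn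
  have hr1 : 1 ≤ r := by
    rw [hr]; exact Real.one_le_sqrt.mpr hn1
  have hrr : r * r = n := Real.mul_self_sqrt (by positivity)
  set k : ℕ := ⌈r⌉₊ with hk
  have hkr : r ≤ k := Nat.le_ceil r
  have hkr1 : (k:ℝ) < r + 1 := Nat.ceil_lt_add_one (by positivity)
  have hk1 : 1 ≤ k := by
    have : (1:ℝ) ≤ k := le_trans hr1 hkr
    exact_mod_cast this
  have hk0 : (0:ℝ) < k := by exact_mod_cast hk1
  have htr := parity_tradeoff n k hn hk1 Φ hΦ
  set W := ((bottomGates Φ).filter fun C => k < C.card).card with hW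
  have hWB : (W : ℝ) ≤ ((bottomGates Φ).card : ℝ) := by
    exact_mod_cast Finset.card_le_card (Finset.filter_subset _ _)
  have h2r : (0:ℝ) < (2:ℝ) ^ r := by positivity
  -- first term
  have h1 : (2:ℝ) ^ (1 - (n:ℝ) / k) ≤ 4 / (2:ℝ) ^ r := by
    have e : (4:ℝ) / (2:ℝ) ^ r = (2:ℝ) ^ ((2:ℝ) - r) := by
      rw [Real.rpow_sub (by norm_num)]
      norm_num
    rw [e]
    apply Real.rpow_le_rpow_of_exponent_le (by norm_num)
    have h3 : r - 1 ≤ (n:ℝ) / k := by
      rw [le_div_iff₀ hk0]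
      nlinarith
    linarith
  -- second term
  have h2 : ((k:ℝ) + 1) / 2 ^ k ≤ (r + 2) / (2:ℝ) ^ r := by
    have e : (2:ℝ) ^ k = (2:ℝ) ^ (k:ℝ) := (Real.rpow_natCast 2 k).symm
    rw [e]
    have h4 : (2:ℝ) ^ r ≤ (2:ℝ) ^ (k:ℝ) := Real.rpow_le_rpow_of_exponent_le (by norm_num) hkr
    rw [div_le_div_iff₀ (by positivity) h2r]
    nlinarith
  have hT0 : (0:ℝ) ≤ Φ.card := by positivity
  have hW0 : (0:ℝ) ≤ W := by positivity
  have h5 : 1 ≤ (Φ.card : ℝ) * (4 / (2:ℝ) ^ r) + (W:ℝ) * ((r + 2) / (2:ℝ) ^ r) := by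
    calc 1 ≤ (Φ.card : ℝ) * (2:ℝ) ^ (1 - (n:ℝ) / k) + (W : ℝ) * ((k:ℝ) + 1) / 2 ^ k := htr
      _ = (Φ.card : ℝ) * (2:ℝ) ^ (1 - (n:ℝ) / k) + (W : ℝ) * (((k:ℝ) + 1) / 2 ^ k) := by ring
      _ ≤ _ := add_le_add (mul_le_mul_of_nonneg_left h1 hT0) (mul_le_mul_of_nonneg_left h2 hW0)
  rw [div_le_iff₀ (by positivity)]
  have h6 : (2:ℝ) ^ r ≤ (Φ.card : ℝ) * 4 + (W:ℝ) * (r + 2) := by
    have h7 : (Φ.card : ℝ) * (4 / (2:ℝ) ^ r) + (W:ℝ) * ((r + 2) / (2:ℝ) ^ r)
        = ((Φ.card : ℝ) * 4 + (W:ℝ) * (r + 2)) / (2:ℝ) ^ r := by ring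
    rw [h7, le_div_iff₀ h2r] at h5
    linarith
  nlinarith

end

end Vale.Agent.Lib.P336
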